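import Vale.Agent.P269L.Pk.Br
import Vale.Agent.P269L.J.Fin

/-!
# The statement of the hand-in, without hypotheses
-/

namespace Vale.Agent.P269L.Pk

open MvPolynomial in
theorem fin (N r : ℕ) (d : Fin r → ℕ) (F : Fin r → MvPolynomial (Fin (N + 1)) ℂ)
    (hF : ∀ k, (F k).IsHomogeneous (d k))
    (hs : ∀ x ∈ c2 F, LinearIndependent ℂ fun k j => eval x (pderiv j (F k)))
    (hc : ConnectedSpace (c6 F)) : c94 F d (N - r) :=
  fin_of N r d F hF hs hc (J.lv.hasPres hF hs hc)

end Vale.Agent.P269L.Pk
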