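import Vale.Agent.P269L.Pk.All
import Vale.Agent.P269L.J.Chk3

/-!
# The numbered text is the statement with the three checks
-/

namespace Vale.Agent.P269L.Pk

open Set Function P269

theorem eIsCyc : @c27 = @Tx.IsCyc := (rfl)

theorem eIsFund : @c28 = @Tx.IsFund := (rfl)

theorem eIsLoc : @c45 = @Pub.IsLoc := (rfl)

theorem eIsEuler : @c46 = @Pub.IsEuler := (rfl)

theorem eIni : @c84 = @Tx.Ini := (rfl)

theorem eVirE {A W E : Type} [NormedRing A] [NormedAlgebra ℂ A] [NormedAddCommGroup W]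
    [NormedSpace ℂ W] [NormedAddCommGroup E] [NormedSpace ℂ E] (act : A → W → W) (ρ : A → E → E)
    (S sol : Set W) (van obs : W → Set E) (σ : W → E) (v) :
    c89 act ρ S sol van obs σ v ↔ Tx.VirE act ρ S sol univ van obs σ id ρ v := by
  unfold c89 Tx.VirE
  rw [eIsCyc, eIsLoc, eIni]
  exact ⟨fun h => ⟨⟨fun _ _ => rfl, fun _ _ => rfl⟩, injective_id, range_id, fun _ _ _ => rfl, h⟩,
    fun h => h.2.2.2.2⟩

theorem eIntg : @c90 = @I.Intg := by
  funext A W E P Y _ _ _ _ _ _ _ _ n act ρ S sol van obs σ q ev ρ' T D l z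
  unfold c90 I.Intg
  simp only [eVirE, eIsEuler]
  rfl

theorem eCrv : @c66 = @I.Crv := (rfl)

theorem eIso : @c71 = @I.Iso := (rfl)

theorem eStb : @c72 = @I.Stb := (rfl)

theorem eCls : @c81 = @I.Cls := (rfl)

theorem ePres {A B B' W E V P X Y ι Λ : Type} [NormedRing A] [NormedAlgebra ℂ A] [NormedRing B]
    [NormedAlgebra ℂ B] [Monoid B'] [NormedAddCommGroup W] [NormedSpace ℂ W] [NormedAddCommGroup E]
    [NormedSpace ℂ E] [NormedAddCommGroup V] [NormedSpace ℂ V] [NormedAddCommGroup P]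
    [NormedSpace ℂ P] [NormedAddCommGroup X] [NormedSpace ℂ X] [TopologicalSpace Y] [Fintype ι]
    {n : ℕ} (χ : (ι → ℕ) → B → ℂ) (sc : B' → X → X) (K : Set X) (TK : X → Set X) (g : ℤ)
    (π : K → Y) (β : Pub.Bm Y) (N : (Fin n → ℕ × Pub.Co Y) → ℂ) :
    c91 A W E V P Λ χ sc K TK g π β N ↔
      ∃ D : I.Dat A B W E V P X ι Λ n, D.Pres χ sc K TK g π β N := by
  unfold c91
  rw [eIntg]
  exact ⟨fun ⟨α, ε, ν, ρ, τ, r, t, S, d, C, m, p, a, b, s, j, H, ev, σ, f, h⟩ =>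
    ⟨⟨α, ε, ν, ρ, τ, r, t, S, d, C, m, p, a, b, s, j, H, ev, σ, f⟩, h⟩,
    fun ⟨⟨α, ε, ν, ρ, τ, r, t, S, d, C, m, p, a, b, s, j, H, ev, σ, f⟩, h⟩ =>
    ⟨α, ε, ν, ρ, τ, r, t, S, d, C, m, p, a, b, s, j, H, ev, σ, f, h⟩⟩

theorem eIsGW : @c92 = @I.IsGW := by
  funext B' X Y _ _ _ _ sc K TK π g β n N
  unfold c92 I.IsGW
  simp only [ePres]
  rfl

theorem eVir {Y : Type} [TopologicalSpace Y] (Hdg Fund Can GW Chk n) :
    c35 (Y := Y) Hdg Fund Can GW Chk n = J.VirC Hdg Fund Can GW (fun N _ => Chk N) n := (rfl)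

theorem eIsHodge : @c37 = @Pub.IsHodge := (rfl)

theorem eIsCan : @c53 = @Pub.IsCan := (rfl)

theorem eConj : @c94 = @J.ConjE := by
  funext J' K _ F d n
  unfold c94 J.ConjE
  dsimp only
  rw [eIsGW, eIsHodge, eIsCan, eIsFund]
  rfl

open MvPolynomial in
theorem fin_of (N r : ℕ) (d : Fin r → ℕ) (F : Fin r → MvPolynomial (Fin (N + 1)) ℂ)
    (hF : ∀ k, (F k).IsHomogeneous (d k))
    (hs : ∀ x ∈ c2 F, LinearIndependent ℂ fun k j => eval x (pderiv j (F k)))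
    (hc : ConnectedSpace (c6 F)) (H : J.HasPres F) : c94 F d (N - r) :=
  eConj ▸ J.conjE_of N r d F hF hs hc H

end Vale.Agent.P269L.Pk
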